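import Vale.Agent.Lib.P154.Neg.LP.Base

/-!
The data of a certificate for a restricted range of `theta`, with all its checks.
-/

namespace Vale.Agent.Lib.P154.Neg.B4340

open Vale.Agent.Lib.P154.Neg.Kron Vale.Agent.Lib.P154.Neg Vale.Agent.Lib.P154.Neg.Cst

def tX_0 : CT := (.s02 (.leaf [130, 6371, 312180] [48, 48, 48]) (.s12 (.s01 (.leaf [169, 8282, 405819] [48, 48, 48]) (.s12 (.leaf [171, 8380, 410621] [48, 48, 48]) (.leaf [180, 8821, 432230] [48, 48, 48]))) (.leaf [147, 7204, 352997] [48, 48, 48])))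
def tY1_1 : CT := (.leaf [578, 28323, 1387828] [48, 48, 48])
def tY1_2 : CT := (.leaf [584, 28617, 1402234] [48, 48, 48])
def tY1_0 : CT := .s02 tY1_1 tY1_2
def tY2_0 : CT := (.leaf [428, 15837, 585970] [36, 36, 36])
def tQ1_0 : BT := (.split 3 (6) (.split 1 (2) (.leaf [450, 9901, 108912, 1742593] [21, 10, 15, 6]) (.split 3 (3) (.leaf [450, 9901, 108912, 1742593] [21, 10, 15, 6]) (.leaf [450, 9901, 108912, 1742593] [21, 10, 15, 6]))) (.leaf [451, 9923, 109154, 1746465] [21, 10, 15, 6]))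
def tQ3_2 : BT := (.split 0 (1774) (.split 3 (2) (.leaf [444, 7105, 78156, 1250497] [15, 10, 15, 6]) (.split 1 (1) (.split 0 (1403) (.leaf [445, 7121, 78332, 1253313] [15, 10, 15, 6]) (.leaf [445, 7121, 78332, 1253313] [15, 10, 15, 6])) (.leaf [445, 7121, 78332, 1253313] [15, 10, 15, 6]))) (.leaf [446, 7137, 78508, 1256129] [15, 10, 15, 6]))
def tQ3_3 : BT := (.leaf [447, 7153, 78684, 1258945] [15, 10, 15, 6])
def tQ3_1 : BT := .split 0 (2516) tQ3_2 tQ3_3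
def tQ3_6 : BT := (.split 3 (2) (.split 0 (1774) (.split 3 (1) (.leaf [444, 7105, 78156, 1250497] [15, 10, 15, 6]) (.leaf [445, 7121, 78332, 1253313] [15, 10, 15, 6])) (.leaf [446, 7137, 78508, 1256129] [15, 10, 15, 6])) (.leaf [446, 7137, 78508, 1256129] [15, 10, 15, 6]))
def tQ3_7 : BT := (.split 3 (2) (.split 0 (1774) (.split 3 (1) (.leaf [445, 7121, 78332, 1253313] [15, 10, 15, 6]) (.leaf [445, 7121, 78332, 1253313] [15, 10, 15, 6])) (.leaf [446, 7137, 78508, 1256129] [15, 10, 15, 6])) (.leaf [446, 7137, 78508, 1256129] [15, 10, 15, 6]))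
def tQ3_5 : BT := .split 1 (3) tQ3_6 tQ3_7
def tQ3_8 : BT := (.leaf [448, 7169, 78860, 1261761] [15, 10, 15, 6])
def tQ3_4 : BT := .split 0 (2516) tQ3_5 tQ3_8
def tQ3_0 : BT := .split 1 (2) tQ3_1 tQ3_4

/-- the data -/
def C : Cst where
  A := ⟨3, 3, 0, 3, 2, 1⟩
  a := (424, 45)
  b := (148, 5)
  c := (156, 5)
  r1 := (3, 4)
  r2 := (11, 12)
  rho1 := (0, 1)
  rho2 := (11, 12)
  g := (9, 25000)
  er := (1, 2)
  kap := (0, 1)
  thm := (1, 10)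
  t1 := (107, 250)
  t2 := (217, 500)
  m0 := (239, 500)
  kp0 := (3, 2)
  W := (.add (.add (.add (.add (.add (.add (.add (.mul (.rat (-1523) 62500) (.pow (.var 1) 2)) (.mul (.rat (1) 2) (.var 0))) (.mul (.mul (.rat (21013) 1000000) (.var 0)) (.var 1))) (.mul (.mul (.rat (-6689) 1000000) (.var 0)) (.pow (.var 1) 2))) (.mul (.rat (12251) 500000) (.pow (.var 0) 2))) (.mul (.mul (.rat (-27) 500000) (.pow (.var 0) 2)) (.var 1))) (.mul (.rat (-151) 125000) (.pow (.var 0) 3))) (.mul (.rat (2599) 1000000) (.pow (.var 0) 4)))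
  V1h := (.add (.add (.add (.add (.add (.add (.add (.add (.mul (.rat (-1) 16) (.var 1)) (.mul (.rat (-164689) 10000000) (.pow (.var 1) 2))) (.mul (.rat (1) 8) (.var 0))) (.mul (.mul (.rat (-95333) 5000000) (.var 0)) (.var 1))) (.mul (.mul (.rat (465753) 10000000) (.var 0)) (.pow (.var 1) 2))) (.mul (.rat (42831) 2500000) (.pow (.var 0) 2))) (.mul (.mul (.rat (-15031) 1000000) (.pow (.var 0) 2)) (.var 1))) (.mul (.rat (62807) 10000000) (.pow (.var 0) 3))) (.mul (.rat (823) 2500000) (.pow (.var 0) 4)))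
  V2h := (.add (.add (.add (.add (.mul (.rat (1) 216) (.var 1)) (.mul (.rat (-57531) 10000000) (.pow (.var 1) 2))) (.mul (.mul (.rat (13751) 10000000) (.var 0)) (.var 1))) (.mul (.rat (-2947) 5000000) (.pow (.var 0) 2))) (.mul (.rat (627) 1000000) (.pow (.var 0) 3)))
  Xi := (.add (.add (.add (.rat (61) 15) (.mul (.rat (-1621161) 250000) (.var 0))) (.mul (.rat (3525589) 1000000) (.pow (.var 0) 2))) (.mul (.rat (2599109) 200000) (.pow (.var 0) 3)))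
  Ek := (.rat 0 1)
  Sz := (.add (.add (.add (.add (.mul (.rat (1) 3) (.var 0)) (.mul (.rat (1) 9) (.pow (.var 0) 2))) (.mul (.rat (5) 81) (.pow (.var 0) 3))) (.mul (.rat (10) 243) (.pow (.var 0) 4))) (.mul (.rat (22) 729) (.pow (.var 0) 5)))
  a0 := 500
  b0 := 555
  c0 := 746
  bRho := (0, 129, 500)
  bBeta := (0, 4, 4)
  bT := (214, 217, 500)
  bKap := (0, 12, 8)
  bEps := (0, 1, 1000)
  bSig := (0, 317, 1000)
  bNu := (0, 817, 1000)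
  bTh := (0, 4, 40)
  bZ := (0, 45535063, 62500000)
  tX := tX_0
  tY1 := tY1_0
  tY2 := tY2_0
  tM1 := (.leaf [11, 78, 547] [6, 6, 6])
  tM2 := (.leaf [10, 71, 498] [6, 6, 6])
  tN1 := (.leaf [13, 92, 645] [6, 6, 6])
  tN2 := (.leaf [12, 85, 596] [6, 6, 6])
  tQ1 := tQ1_0
  tQ2 := (.leaf [622, 13685, 218961, 2408572] [21, 15, 10, 15])
  tW := (.leaf [59, 532] [8, 8])
  tK := (.leaf [118, 827] [6, 5])
  tS1 := (.leaf [83, 416] [4, 4])
  tS2 := (.leaf [90, 451] [4, 4])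
  tC := (.leaf [73, 293, 1173] [3, 3, 4])
  tXi := (.leaf [42, 169] [3, 0])
  tE := (.leaf [1, 2] [0, 0])
  tZ := (.leaf [435] [15])

/-- the further data -/
def X : Ext where
  rho0 := (129, 500)
  bR3 := (1032, 4000, 4000)
  bRW := (0, 1, 1)
  tQ3 := tQ3_0

def btQ1_root : List (ℤ × ℤ × ℕ) := [C.bRho, C.bBeta, C.bT, C.bKap]

def btQ3_root : List (ℤ × ℤ × ℕ) := [X.bR3, C.bBeta, C.bT, C.bTh]

def btQ3_0l : List (ℤ × ℤ × ℕ) := btQ3_root.set 1 ((btQ3_root.getD 1 (0, 1, 1)).1, (2), (btQ3_root.getD 1 (0, 1, 1)).2.2)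

def btQ3_0r : List (ℤ × ℤ × ℕ) := btQ3_root.set 1 ((2), (btQ3_root.getD 1 (0, 1, 1)).2.1, (btQ3_root.getD 1 (0, 1, 1)).2.2)

def btQ3_1l : List (ℤ × ℤ × ℕ) := btQ3_0l.set 0 ((btQ3_0l.getD 0 (0, 1, 1)).1, (2516), (btQ3_0l.getD 0 (0, 1, 1)).2.2)

def btQ3_1r : List (ℤ × ℤ × ℕ) := btQ3_0l.set 0 ((2516), (btQ3_0l.getD 0 (0, 1, 1)).2.1, (btQ3_0l.getD 0 (0, 1, 1)).2.2)

def btQ3_4l : List (ℤ × ℤ × ℕ) := btQ3_0r.set 0 ((btQ3_0r.getD 0 (0, 1, 1)).1, (2516), (btQ3_0r.getD 0 (0, 1, 1)).2.2)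

def btQ3_4r : List (ℤ × ℤ × ℕ) := btQ3_0r.set 0 ((2516), (btQ3_0r.getD 0 (0, 1, 1)).2.1, (btQ3_0r.getD 0 (0, 1, 1)).2.2)

def btQ3_5l : List (ℤ × ℤ × ℕ) := btQ3_4l.set 1 ((btQ3_4l.getD 1 (0, 1, 1)).1, (3), (btQ3_4l.getD 1 (0, 1, 1)).2.2)

def btQ3_5r : List (ℤ × ℤ × ℕ) := btQ3_4l.set 1 ((3), (btQ3_4l.getD 1 (0, 1, 1)).2.1, (btQ3_4l.getD 1 (0, 1, 1)).2.2)

end Vale.Agent.Lib.P154.Neg.B4340
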